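import Vale.Agent.P352X.R.CONK.A3.A
import Vale.Agent.P352Z.P352X.R.CONK.Tri
import Vale.Agent.P352Z.P352X.R.CONK.Ub

open Vale.Agent.P352G

/-!
# P352X, block CONK, row A3: norms of modulated test functions
-/

set_option linter.all false

open MeasureTheory Filter Topology Set
open scoped ContDiff SchwartzMap

namespace Vale.Agent.P352X.CK.A3p

open Vale.Agent.P352 Vale.Agent.P352.GF Vale.Agent.P352.BW Vale.Agent.P352.H246
open Vale.Agent.P352.H496 Vale.Agent.P352.H755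
open UniformSpace (Completion)

noncomputable section

variable {D : Type*} [NormedAddCommGroup D] [InnerProductSpace ℂ D] [GrD D] {c : CtxZ D}

/-- the commutator of two modulated fields against an operator to the right -/
theorem com_leZ (t : ToolsZ c) : ∃ C : ℝ, 0 ≤ C ∧ ∀ W (a u0 : ℝ) y r X (g f : P3 → ℝ) (ρ φ : ℝ → ℝ)
    (l l' : R2 →L[ℝ] ℝ) (F : S2), IsWZ c W → dc y r ⊆ {z | be z < -u0 ∧ a < al z} →
    X ∈ c.N (dc y r) → Tst g → Tst f → Tst ρ → Tst φ → tsupport g ⊆ {y | y.1 < a} →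
    tsupport f ⊆ {y | y.1 < a} → tsupport ρ ⊆ Ioi (-u0) → tsupport φ ⊆ Ioi (-u0) →
    (∀ x y, F (x, y) = pf (md l g) (cx ρ) x * pf (md l' f) (cx φ) y) →
    ‖inner ℂ (X c.Om) ((w0L W - w1L W) F)‖ ≤ C * ‖X‖ * (n2 (cx (dR (dR g))) * n2 (cx ρ)) *
      (n2 (cx (dR f)) * n2 (cx (deriv φ))) := by
  obtain ⟨C, C0, hn⟩ := t.norm
  refine ⟨2 * C * C, by positivity,
    fun W a u0 y r X g f ρ φ l l' F hW hO hX hg hf hρ hφ sg sf sρ sφ e => ?_⟩
  have i1 : ∀ l, In {z | al z < a ∧ -u0 < be z} (pf (md l g) (cx ρ)) := fun l =>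
    in_md l hg hρ fun z h1 h2 => ⟨sg h1, sρ h2⟩
  have i2 : ∀ l, In {z | al z < a ∧ -u0 < be z} (pf (md l f) (cx φ)) := fun l =>
    in_md l hf hφ fun z h1 h2 => ⟨sf h1, sφ h2⟩
  have n1 : ∀ l, ‖((TaaZ c (pf (md l g) (cx ρ)) c.Q.vac : D) : Completion D)‖ ≤
      C * n2 (cx (dR (dR g))) * n2 (cx ρ) := fun l => by
    have := (hn _ (cx ρ) (dc_md l hg) (Ap.dc_cx hρ)).1
    rwa [da_md l hg, da_md l (tst_dR hg), n2_md] at this
  have n2' : ∀ l, ‖((c.Thf (pf (md l f) (cx φ)) c.Q.vac : D) : Completion D)‖ ≤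
      C * n2 (cx (dR f)) * n2 (cx (deriv φ)) := fun l => by
    have := (hn _ (cx φ) (dc_md l hf) (Ap.dc_cx hφ)).2.2
    rwa [da_md l hf, n2_md, deriv_cx hφ] at this
  obtain ⟨p1, p2⟩ := t.cv.prod W _ _ F hW (i1 l).1 (i2 l').1 e
  have q1 := (t.tri.op a u0 y r X _ (c.Thf (pf (md l' f) (cx φ)) c.Q.vac) c.Q.vac hO hX (i1 (-l))).2
  have q2 := (t.tri.op a u0 y r X _ (TaaZ c (pf (md l g) (cx ρ)) c.Q.vac) c.Q.vac hO hX (i2 (-l'))).1
  rw [bar_md, neg_neg] at q1 q2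
  rw [norm_inner_symm, ContinuousLinearMap.sub_apply, p1, p2, inner_sub_left]
  have b : ∀ u v : Completion D, ‖inner ℂ u (X v)‖ ≤ ‖u‖ * (‖X‖ * ‖v‖) := fun u v =>
    (norm_inner_le_norm _ _).trans (mul_le_mul_of_nonneg_left (X.le_opNorm v) (norm_nonneg _))
  have := n2_nonneg (cx (dR (dR g)))
  have := n2_nonneg (cx ρ)
  have := n2_nonneg (cx (dR f))
  have := n2_nonneg (cx (deriv φ))
  refine (norm_sub_le_of_le ((congrArg norm q1).trans_le ((b _ _).trans (mul_le_mul (n2' _)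
    (mul_le_mul_of_nonneg_left (n1 _) (norm_nonneg X)) (by positivity) (by positivity))))
    ((congrArg norm q2).trans_le ((b _ _).trans (mul_le_mul (n1 _)
    (mul_le_mul_of_nonneg_left (n2' _) (norm_nonneg X)) (by positivity)
      (by positivity))))).trans_eq (by ring)

/-! ### the three norms -/

end

end Vale.Agent.P352X.CK.A3p
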